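import Vale.Agent.P321.Defs

/-!
Trace reconstruction for strings over an arbitrary alphabet `α` (finite or infinite); the symbols
that survive are observed exactly.
-/

namespace Vale.Agent.P321A

open Vale.Agent.P321
open scoped unitInterval ENNReal

/-- The law of a trace of the string `x` over the alphabet `α`: every symbol is deleted
independently with probability `q`, the surviving symbols are concatenated in their original
order. -/
noncomputable def traceA {α : Type} (q : I) : List α → PMF (List α)
  | [] => PMF.pure []
  | b :: x => (coin q).bind fun deleted =>
      (traceA q x).map fun t => if deleted then t else b :: t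

/-- The law of a list of `m` independent traces of `x`. -/
noncomputable def tracesA {α : Type} (q : I) (x : List α) : ℕ → PMF (List (List α))
  | 0 => PMF.pure []
  | m + 1 => (traceA q x).bind fun t => (tracesA q x m).map fun ts => t :: ts

/-- The least number `m` of traces for which some randomized estimator outputs every string of
length `n` over the alphabet `α` with probability at least `s` (`⊤` if there is none). -/
noncomputable def TA (α : Type) (q : I) (s : ℝ) (n : ℕ) : ℕ∞ :=
  ⨅ (m : ℕ) (_ : ∃ est : List (List α) → PMF (Fin n → α), ∀ x : Fin n → α,
    ENNReal.ofReal s ≤ ((tracesA q (List.ofFn x) m).bind est) x), (m : ℕ∞)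

end Vale.Agent.P321A
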