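import Vale.Agent.P321A.Red
import Mathlib.Analysis.SpecialFunctions.Pow.Real
import Mathlib.Analysis.SpecialFunctions.Pow.Asymptotics

/-!
The number of traces is monotone in the length; the upper bounds for binary strings transfer to
every alphabet at the same success probability.
-/

namespace Vale.Agent.P321A

open Vale.Agent.P321 Vale.Agent.P321Z Filter Topology
open scoped unitInterval ENNReal

/-- Put an independent trace of the letter `false` in front of every string of a list. -/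
noncomputable def padK (q : I) : List (List Bool) → PMF (List (List Bool))
  | [] => PMF.pure []
  | t :: ts => (coin q).bind fun d => (padK q ts).map fun us => (if d then t else false :: t) :: us

theorem bind_padK (q : I) (x : List Bool) (m : ℕ) :
    (tracesLaw q x m).bind (padK q) = tracesLaw q (false :: x) m := by
  induction m with
  | zero => simp [tracesLaw, padK]
  | succ m ih =>
    simp only [tracesLaw, traceLaw, PMF.bind_bind, PMF.bind_map, ← ih, PMF.map_bind]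
    rw [PMF.bind_comm (coin q)]
    congr 1
    funext t
    simp only [Function.comp_def, padK]
    rw [PMF.bind_comm (coin q)]

theorem Ts_le_succ (q : I) (s : ℝ) (n : ℕ) : Ts q s n ≤ Ts q s (n + 1) := by
  unfold Ts
  refine le_iInf₂ fun m hm => iInf₂_le m ?_
  obtain ⟨est, he⟩ := hm
  refine ⟨fun ts => ((padK q ts).bind est).map fun y i => y i.succ, fun x => ?_⟩
  have h1 := he (Fin.cons false x)
  have h2 : List.ofFn (Fin.cons false x : Fin (n + 1) → Bool) = false :: List.ofFn x := by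
    simp [List.ofFn_succ]
  rw [h2, ← bind_padK, PMF.bind_bind] at h1
  have h3 := le_map_apply ((tracesLaw q (List.ofFn x) m).bind fun ts => (padK q ts).bind est)
    (fun (y : Fin (n + 1) → Bool) (i : Fin n) => y i.succ) (Fin.cons false x)
  rw [PMF.map_bind] at h3
  exact h1.trans h3

theorem Ts_mono_n (q : I) (s : ℝ) : Monotone (Ts q s) :=
  monotone_nat_of_le_succ (Ts_le_succ q s)

/-- Every alphabet at length `n` is at most as hard as binary strings at length `2 n + 2`. -/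
theorem TA_le_pad (α : Type) [Nonempty α] (q : I) (n : ℕ) {s : ℝ} (hs : s ≤ 1 - Real.exp (-n)) :
    TA α q s n ≤ Ts q (1 - Real.exp (-((2 * n + 2 : ℕ) : ℝ))) (2 * n + 2) := by
  refine le_trans (TA_mono α q ?_ n) ((TA_le_Ts α q _ n).trans (Ts_mono_n q _ (by omega)))
  have h1 : 2 * ((n : ℝ) + 1) ≤ Real.exp (n + 2) := by
    have e : Real.exp ((n : ℝ) + 2) = Real.exp 1 * Real.exp (n + 1) := by
      rw [← Real.exp_add]; ring_nf
    have a1 := Real.add_one_le_exp (1 : ℝ)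
    have a2 := Real.add_one_le_exp ((n : ℝ) + 1)
    have a3 : (0 : ℝ) ≤ n := Nat.cast_nonneg n
    rw [e]
    nlinarith
  have h2 : Real.exp (-(n : ℝ)) = Real.exp (n + 2) * Real.exp (-((2 * n + 2 : ℕ) : ℝ)) := by
    rw [← Real.exp_add]; push_cast; ring_nf
  have h3 := Real.exp_pos (-((2 * n + 2 : ℕ) : ℝ))
  nlinarith

theorem pad_le_cube {n : ℕ} (hn : 2 ≤ n) : ((2 * n + 2 : ℕ) : ℝ) ≤ (n : ℝ) ^ 3 := by
  have h : (2 : ℝ) ≤ n := by exact_mod_cast hn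
  push_cast
  nlinarith [mul_nonneg (sub_nonneg.mpr h) (sq_nonneg (n : ℝ)), sq_nonneg ((n : ℝ) - 2)]

theorem log_pad_le {n : ℕ} (hn : 2 ≤ n) : Real.log ((2 * n + 2 : ℕ) : ℝ) ≤ 3 * Real.log n := by
  have h := Real.log_le_log (by positivity) (pad_le_cube hn)
  rw [Real.log_pow] at h
  exact_mod_cast h

theorem floor_mono {x y : ℝ} (h : x ≤ y) : ((⌊x⌋₊ : ℕ) : ℕ∞) ≤ ((⌊y⌋₊ : ℕ) : ℕ∞) := by
  exact_mod_cast Nat.floor_le_floor h

theorem upper_all {a : ℝ} (ha : 2 < a)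
    (h : ∃ C : ℝ, 0 < C ∧ ∀ q : I, (q : ℝ) < 1 → ∀ n : ℕ, 2 ≤ n →
      ∀ s : ℝ, s ≤ 1 - Real.exp (-n) →
        Ts q s n ≤ (⌊Real.exp (C / (1 - q) * (Real.log n) ^ a)⌋₊ : ℕ∞)) :
    ∃ C : ℝ, 0 < C ∧ ∀ (α : Type) [Nonempty α] (q : I), (q : ℝ) < 1 → ∀ n : ℕ, 2 ≤ n →
      ∀ s : ℝ, s ≤ 1 - Real.exp (-n) →
        TA α q s n ≤ (⌊Real.exp (C / (1 - q) * (Real.log n) ^ a)⌋₊ : ℕ∞) := by
  obtain ⟨C, hC, h⟩ := h
  refine ⟨C * 3 ^ a, by positivity, fun α _ q hq n hn s hs => ?_⟩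
  refine (TA_le_pad α q n hs).trans ((h q hq _ (by omega) _ le_rfl).trans (floor_mono ?_))
  refine Real.exp_le_exp.mpr ?_
  have h0 : 0 ≤ Real.log n := Real.log_natCast_nonneg n
  have h1 : Real.log ((2 * n + 2 : ℕ) : ℝ) ^ a ≤ 3 ^ a * Real.log n ^ a := by
    rw [← Real.mul_rpow (by norm_num) h0]
    exact Real.rpow_le_rpow (Real.log_natCast_nonneg _) (log_pad_le hn) (by linarith)
  have h2 : 0 < C / (1 - (q : ℝ)) := div_pos hC (by linarith)
  calc C / (1 - q) * Real.log ((2 * n + 2 : ℕ) : ℝ) ^ a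
      ≤ C / (1 - q) * (3 ^ a * Real.log n ^ a) := by gcongr
    _ = C * 3 ^ a / (1 - q) * Real.log n ^ a := by ring

theorem upper_half {a : ℝ} (ha : 2 < a)
    (h : ∃ C : ℝ, 0 < C ∧ ∀ q : I, 0 < (q : ℝ) → (q : ℝ) ≤ 1 / 2 →
      ∀ n : ℕ, 2 ≤ n → ∀ s : ℝ, s ≤ 1 - Real.exp (-n) →
        Ts q s n ≤ (⌊Real.exp (C * Real.log n *
          (1 + Real.log n / Real.log (1 / (q : ℝ))) ^ (a - 1))⌋₊ : ℕ∞)) :
    ∃ C : ℝ, 0 < C ∧ ∀ (α : Type) [Nonempty α] (q : I), 0 < (q : ℝ) → (q : ℝ) ≤ 1 / 2 →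
      ∀ n : ℕ, 2 ≤ n → ∀ s : ℝ, s ≤ 1 - Real.exp (-n) →
        TA α q s n ≤ (⌊Real.exp (C * Real.log n *
          (1 + Real.log n / Real.log (1 / (q : ℝ))) ^ (a - 1))⌋₊ : ℕ∞) := by
  obtain ⟨C, hC, h⟩ := h
  refine ⟨C * 3 * 3 ^ (a - 1), by positivity, fun α _ q hq hq' n hn s hs => ?_⟩
  refine (TA_le_pad α q n hs).trans ((h q hq hq' _ (by omega) _ le_rfl).trans (floor_mono ?_))
  refine Real.exp_le_exp.mpr ?_
  have h0 : 0 ≤ Real.log n := Real.log_natCast_nonneg n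
  have h0' : 0 ≤ Real.log ((2 * n + 2 : ℕ) : ℝ) := Real.log_natCast_nonneg _
  have hl : 0 < Real.log (1 / (q : ℝ)) := Real.log_pos (by
    rw [lt_div_iff₀ hq]; linarith)
  have hp := log_pad_le hn
  have h1 : 1 + Real.log ((2 * n + 2 : ℕ) : ℝ) / Real.log (1 / (q : ℝ)) ≤
      3 * (1 + Real.log n / Real.log (1 / (q : ℝ))) := by
    have : Real.log ((2 * n + 2 : ℕ) : ℝ) / Real.log (1 / (q : ℝ)) ≤
        3 * Real.log n / Real.log (1 / (q : ℝ)) := by gcongr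
    rw [mul_div_assoc] at this
    linarith
  have h2 : (1 + Real.log ((2 * n + 2 : ℕ) : ℝ) / Real.log (1 / (q : ℝ))) ^ (a - 1) ≤
      3 ^ (a - 1) * (1 + Real.log n / Real.log (1 / (q : ℝ))) ^ (a - 1) := by
    rw [← Real.mul_rpow (by norm_num) (by positivity)]
    exact Real.rpow_le_rpow (by positivity) h1 (by linarith)
  calc C * Real.log ((2 * n + 2 : ℕ) : ℝ) *
        (1 + Real.log ((2 * n + 2 : ℕ) : ℝ) / Real.log (1 / (q : ℝ))) ^ (a - 1)
      ≤ C * (3 * Real.log n) *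
        (3 ^ (a - 1) * (1 + Real.log n / Real.log (1 / (q : ℝ))) ^ (a - 1)) := by gcongr
    _ = _ := by ring

theorem upper_small
    (h : ∀ δ : ℝ, 0 < δ → ∃ C : ℝ, 0 < C ∧ ∀ n : ℕ, 2 ≤ n → ∀ q : I, (q : ℝ) ≤ (n : ℝ) ^ (-δ) →
      ∀ s : ℝ, s ≤ 1 - Real.exp (-n) → Ts q s n ≤ (⌊(n : ℝ) ^ C⌋₊ : ℕ∞)) (δ : ℝ) (hδ : 0 < δ) :
    ∃ C : ℝ, 0 < C ∧ ∀ (α : Type) [Nonempty α] (n : ℕ), 2 ≤ n → ∀ q : I,
      (q : ℝ) ≤ (n : ℝ) ^ (-δ) →
      ∀ s : ℝ, s ≤ 1 - Real.exp (-n) → TA α q s n ≤ (⌊(n : ℝ) ^ C⌋₊ : ℕ∞) := by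
  obtain ⟨C, hC, h⟩ := h (δ / 3) (by positivity)
  refine ⟨3 * C, by positivity, fun α _ n hn q hq s hs => ?_⟩
  have hn0 : (0 : ℝ) ≤ n := Nat.cast_nonneg n
  have hc := pad_le_cube hn
  have hpos : (0 : ℝ) < ((2 * n + 2 : ℕ) : ℝ) := by positivity
  have e : ∀ y : ℝ, ((n : ℝ) ^ 3) ^ y = (n : ℝ) ^ (3 * y) := fun y => by
    rw [Real.rpow_mul hn0]; norm_cast
  have hq' : (q : ℝ) ≤ ((2 * n + 2 : ℕ) : ℝ) ^ (-(δ / 3)) := by
    refine hq.trans ?_
    have h1 := Real.rpow_le_rpow_of_nonpos hpos hc (z := -(δ / 3)) (by linarith)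
    rw [e] at h1
    have e2 : 3 * -(δ / 3) = -δ := by ring
    rwa [e2] at h1
  refine (TA_le_pad α q n hs).trans ((h _ (by omega) q hq' _ le_rfl).trans (floor_mono ?_))
  rw [← e]
  exact Real.rpow_le_rpow hpos.le hc hC.le

theorem upper_fixed
    (h : ∀ a : ℝ, 2 < a → ∃ C : ℝ, 0 < C ∧ ∀ q : I, (q : ℝ) < 1 → ∀ n : ℕ, 2 ≤ n →
      ∀ s : ℝ, s ≤ 1 - Real.exp (-n) →
        Ts q s n ≤ (⌊Real.exp (C / (1 - q) * (Real.log n) ^ a)⌋₊ : ℕ∞))
    (q : I) (hq : (q : ℝ) < 1) {a : ℝ} (ha : 2 < a) :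
    ∀ᶠ n : ℕ in atTop, ∀ (α : Type) [Nonempty α],
      TA α q (2 / 3) n ≤ (⌊Real.exp ((Real.log n) ^ a)⌋₊ : ℕ∞) := by
  obtain ⟨C, hC, h⟩ := upper_all (a := (a + 2) / 2) (by linarith) (h _ (by linarith))
  have ht : Tendsto (fun n : ℕ => Real.log n ^ ((a - 2) / 2)) atTop atTop :=
    (tendsto_rpow_atTop (by linarith)).comp
      (Real.tendsto_log_atTop.comp tendsto_natCast_atTop_atTop)
  filter_upwards [ht.eventually_ge_atTop (C / (1 - q)), eventually_ge_atTop 2] with n h1 hn α _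
  have hn' : (2 : ℝ) ≤ n := by exact_mod_cast hn
  have hs : (2 / 3 : ℝ) ≤ 1 - Real.exp (-n) := by
    have a1 := Real.add_one_le_exp (n : ℝ)
    have a2 : Real.exp (-(n : ℝ)) * Real.exp n = 1 := by rw [← Real.exp_add]; simp
    have a3 := Real.exp_pos (-(n : ℝ))
    nlinarith
  refine (h α q hq n hn _ hs).trans (floor_mono (Real.exp_le_exp.mpr ?_))
  have h0 : 0 < Real.log n := Real.log_pos (by linarith)
  have e : Real.log n ^ a = Real.log n ^ ((a - 2) / 2) * Real.log n ^ ((a + 2) / 2) := by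
    rw [← Real.rpow_add h0]; ring_nf
  rw [e]
  gcongr

end Vale.Agent.P321A
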