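import Vale.Agent.P321A.Defs
import Vale.Agent.P321Z.Defs
import Mathlib.Tactic

/-!
Trace reconstruction over an arbitrary alphabet compared with binary strings: the lower bounds
transfer by a retraction of alphabets, the upper bounds by the majority estimator applied to the
indicator strings of the symbols.
-/

namespace Vale.Agent.P321A

open Vale.Agent.P321 Vale.Agent.P321Z
open scoped unitInterval ENNReal

theorem traceA_map {α β : Type} (f : α → β) (q : I) (x : List α) :
    (traceA q x).map (List.map f) = traceA q (x.map f) := by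
  induction x with
  | nil => simp [traceA, PMF.pure_map]
  | cons b x ih =>
    simp only [traceA, List.map_cons, PMF.map_bind, ← ih, PMF.map_comp]
    congr 1
    funext d
    congr 1
    funext t
    cases d <;> simp

theorem tracesA_map {α β : Type} (f : α → β) (q : I) (x : List α) (m : ℕ) :
    (tracesA q x m).map (List.map (List.map f)) = tracesA q (x.map f) m := by
  induction m with
  | zero => simp [tracesA, PMF.pure_map]
  | succ m ih =>
    simp only [tracesA, PMF.map_bind, ← ih, ← traceA_map, PMF.map_comp, PMF.bind_map]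
    congr 1

theorem traceA_bool (q : I) (x : List Bool) : traceA q x = traceLaw q x := by
  induction x with
  | nil => rfl
  | cons b x ih => simp only [traceA, traceLaw, ih]

theorem tracesA_bool (q : I) (x : List Bool) (m : ℕ) : tracesA q x m = tracesLaw q x m := by
  induction m with
  | zero => rfl
  | succ m ih => simp only [tracesA, tracesLaw, ih, traceA_bool]

theorem TA_bool (q : I) (s : ℝ) (n : ℕ) : TA Bool q s n = Ts q s n := by
  simp only [TA, Ts, Succeeds, tracesA_bool]

theorem TA_mono (α : Type) (q : I) {s s' : ℝ} (h : s ≤ s') (n : ℕ) :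
    TA α q s n ≤ TA α q s' n := by
  unfold TA
  refine le_iInf₂ fun m hm => iInf₂_le m ?_
  obtain ⟨est, he⟩ := hm
  exact ⟨est, fun x => (ENNReal.ofReal_le_ofReal h).trans (he x)⟩

theorem le_map_apply {β γ : Type} (p : PMF β) (g : β → γ) (y : β) : p y ≤ (p.map g) (g y) := by
  rw [← PMF.toOuterMeasure_apply_singleton, ← PMF.toOuterMeasure_apply_singleton,
    PMF.toOuterMeasure_map_apply]
  refine MeasureTheory.measure_mono ?_
  rintro _ rfl
  rfl

/-- Lower bounds transfer to every alphabet with two symbols. -/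
theorem Ts_le_TA (α : Type) [Nontrivial α] (q : I) (s : ℝ) (n : ℕ) : Ts q s n ≤ TA α q s n := by
  classical
  obtain ⟨a, b, hab⟩ := exists_pair_ne α
  set ι : Bool → α := fun c => if c then a else b with hι
  set ρ : α → Bool := fun y => decide (y = a) with hρ
  have hρι : ∀ c, ρ (ι c) = c := by
    intro c
    cases c
    · simp [hι, hρ, hab.symm]
    · simp [hι, hρ]
  unfold TA Ts
  refine le_iInf₂ fun m hm => iInf₂_le m ?_
  obtain ⟨est, he⟩ := hm
  refine ⟨fun ts => (est (ts.map (List.map ι))).map fun y i => ρ (y i), fun x => ?_⟩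
  have h1 := he fun i => ι (x i)
  have h2 : List.ofFn (fun i => ι (x i)) = (List.ofFn x).map ι := by
    rw [List.map_ofFn]; rfl
  rw [h2, ← tracesA_map, tracesA_bool, PMF.bind_map] at h1
  have h3 := le_map_apply ((tracesLaw q (List.ofFn x) m).bind (est ∘ List.map (List.map ι)))
    (fun y i => ρ (y i)) (fun i => ι (x i))
  have h4 : (fun i => ρ (ι (x i))) = x := funext fun i => hρι _
  rw [h4, PMF.map_bind] at h3
  exact h1.trans h3

theorem add_compl {β : Type} (p : PMF β) (A : Set β) :
    p.toOuterMeasure A + p.toOuterMeasure Aᶜ = 1 := by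
  rw [PMF.toOuterMeasure_apply, PMF.toOuterMeasure_apply, ← ENNReal.tsum_add, ← p.tsum_coe]
  congr 1
  funext x
  exact congrFun (Set.indicator_self_add_compl A p) x

theorem eq_of_half {γ : Type} (p : PMF γ) {x y : γ} (hx : 1 / 2 < p x) (hy : 1 / 2 < p y) :
    x = y := by
  by_contra hne
  have h1 := add_compl p {x}
  have h2 : p.toOuterMeasure {y} ≤ p.toOuterMeasure ({x}ᶜ) :=
    MeasureTheory.measure_mono (by
      rintro _ rfl
      exact fun h => hne (Set.mem_singleton_iff.mp h).symm)
  rw [PMF.toOuterMeasure_apply_singleton] at h1 h2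
  have h3 : (1 : ℝ≥0∞) / 2 + 1 / 2 < p x + p.toOuterMeasure ({x}ᶜ) :=
    ENNReal.add_lt_add hx (hy.trans_le h2)
  rw [h1, ENNReal.add_halves] at h3
  exact lt_irrefl _ h3

/-- The majority rule turns a randomized estimator into a deterministic one. -/
theorem exists_major {β γ : Type} [Nonempty γ] (est : β → PMF γ) : ∃ D : β → γ,
    ∀ (μ : PMF β) (x : γ) (d : ℝ), ENNReal.ofReal (1 - d) ≤ (μ.bind est) x →
      μ.toOuterMeasure {t | D t ≠ x} ≤ 2 * ENNReal.ofReal d := by
  classical
  refine ⟨fun t => Classical.epsilon fun y => 1 / 2 < est t y, fun μ x d h => ?_⟩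
  set A : Set β := {t | (Classical.epsilon fun y => 1 / 2 < est t y) ≠ x} with hA
  have h1 : ∀ t, μ t * est t x + 1 / 2 * A.indicator μ t ≤ μ t := by
    intro t
    by_cases ht : t ∈ A
    · have h2 : est t x ≤ 1 / 2 := by
        by_contra hc
        have hc' : 1 / 2 < est t x := lt_of_not_ge hc
        exact ht (eq_of_half (est t)
          (Classical.epsilon_spec (p := fun y => 1 / 2 < est t y) ⟨x, hc'⟩) hc')
      rw [Set.indicator_of_mem ht]
      calc μ t * est t x + 1 / 2 * μ t ≤ μ t * (1 / 2) + 1 / 2 * μ t := by gcongr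
        _ = μ t * (1 / 2 + 1 / 2) := by ring
        _ = μ t := by rw [ENNReal.add_halves, mul_one]
    · rw [Set.indicator_of_notMem ht, mul_zero, add_zero]
      exact mul_le_of_le_one_right' (PMF.coe_le_one _ _)
  have h2 : (μ.bind est) x + 1 / 2 * μ.toOuterMeasure A ≤ 1 := by
    rw [PMF.bind_apply, PMF.toOuterMeasure_apply, ← ENNReal.tsum_mul_left, ← ENNReal.tsum_add]
    exact (ENNReal.tsum_le_tsum h1).trans_eq μ.tsum_coe
  have h3 : (1 : ℝ≥0∞) ≤ ENNReal.ofReal (1 - d) + ENNReal.ofReal d := by
    refine le_trans ?_ ENNReal.ofReal_add_le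
    simp
  have h4 : ENNReal.ofReal (1 - d) + 1 / 2 * μ.toOuterMeasure A ≤
      ENNReal.ofReal (1 - d) + ENNReal.ofReal d :=
    le_trans (by gcongr) (h2.trans h3)
  have h5 := (ENNReal.add_le_add_iff_left ENNReal.ofReal_ne_top).mp h4
  calc μ.toOuterMeasure A = 2 * (1 / 2 * μ.toOuterMeasure A) := by
        rw [← mul_assoc, one_div, ENNReal.mul_inv_cancel (by norm_num) (by norm_num), one_mul]
    _ ≤ 2 * ENNReal.ofReal d := by gcongr

/-- Upper bounds transfer to every alphabet. -/
theorem TA_le_Ts (α : Type) [Nonempty α] (q : I) (d : ℝ) (n : ℕ) :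
    TA α q (1 - 2 * (n + 1) * d) n ≤ Ts q (1 - d) n := by
  classical
  unfold TA Ts
  refine le_iInf₂ fun m hm => iInf₂_le m ?_
  obtain ⟨est, he⟩ := hm
  obtain ⟨D, hD⟩ := exists_major est
  set E : List (List α) → Fin n → α := fun ts i =>
    Classical.epsilon fun a => D (ts.map (List.map fun b => decide (b = a))) i = true with hE
  refine ⟨fun ts => PMF.pure (E ts), fun x => ?_⟩
  set ν : PMF (List (List (Fin n))) := tracesA q (List.ofFn id) m with hν
  have hbad : ∀ g : Fin n → Bool,
      ν.toOuterMeasure {ts | D (ts.map (List.map g)) ≠ g} ≤ 2 * ENNReal.ofReal d := by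
    intro g
    have h1 := hD _ g d (he g)
    have h2 : List.ofFn g = (List.ofFn id).map g := by rw [List.map_ofFn]; rfl
    rw [h2, ← tracesA_bool, ← tracesA_map, PMF.toOuterMeasure_map_apply] at h1
    exact h1
  set G : Option (Fin n) → Fin n → Bool := fun o j => o.elim false fun i => decide (x j = x i)
    with hG
  set B : Set (List (List (Fin n))) := ⋃ o, {ts | D (ts.map (List.map (G o))) ≠ G o} with hB
  have hBle : ν.toOuterMeasure B ≤ ENNReal.ofReal (2 * (n + 1) * d) := by
    refine (MeasureTheory.measure_iUnion_fintype_le _ _).trans ?_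
    refine (Finset.sum_le_sum fun o _ => hbad (G o)).trans ?_
    rw [Finset.sum_const, Finset.card_univ, Fintype.card_option, Fintype.card_fin, nsmul_eq_mul,
      ENNReal.ofReal_mul (by positivity), ENNReal.ofReal_mul (by norm_num)]
    have e1 : ENNReal.ofReal ((n : ℝ) + 1) = ((n + 1 : ℕ) : ℝ≥0∞) := by
      rw [← ENNReal.ofReal_natCast]; push_cast; rfl
    rw [e1, ENNReal.ofReal_ofNat]
    exact le_of_eq (by ring)
  have hgood : ∀ ts, ts ∉ B → E (ts.map (List.map x)) = x := by
    intro ts hts
    have hall : ∀ a : α, D ((ts.map (List.map x)).map (List.map fun b => decide (b = a))) =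
        fun j => decide (x j = a) := by
      intro a
      obtain ⟨o, ho⟩ : ∃ o, G o = fun j => decide (x j = a) := by
        by_cases ha : ∃ i, x i = a
        · obtain ⟨i, rfl⟩ := ha
          exact ⟨some i, rfl⟩
        · refine ⟨none, funext fun j => ?_⟩
          have : x j ≠ a := fun h => ha ⟨j, h⟩
          simp [hG, this]
      have h1 : D (ts.map (List.map (G o))) = G o := by
        by_contra hc
        exact hts (Set.mem_iUnion.mpr ⟨o, hc⟩)
      rw [ho] at h1
      rw [← h1, List.map_map]
      congr 2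
      funext t
      simp [List.map_map, Function.comp_def]
    funext i
    have h2 := Classical.epsilon_spec (p := fun a =>
      D ((ts.map (List.map x)).map (List.map fun b => decide (b = a))) i = true)
      ⟨x i, by rw [hall]; simp⟩
    rw [hall] at h2
    exact (of_decide_eq_true h2).symm
  have h2 : List.ofFn x = (List.ofFn id).map x := by rw [List.map_ofFn]; rfl
  have h3 : ((tracesA q (List.ofFn x) m).bind fun ts => PMF.pure (E ts)) =
      ν.map (E ∘ List.map (List.map x)) := by
    rw [h2, ← tracesA_map, ← PMF.map_comp]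
    rfl
  rw [h3, ← PMF.toOuterMeasure_apply_singleton, PMF.toOuterMeasure_map_apply]
  have h4 : ν.toOuterMeasure Bᶜ ≤ ν.toOuterMeasure ((E ∘ List.map (List.map x)) ⁻¹' {x}) :=
    MeasureTheory.measure_mono fun ts hts => hgood ts hts
  refine le_trans ?_ h4
  have h5 := add_compl ν B
  by_cases hd : 0 ≤ 2 * ((n : ℝ) + 1) * d
  · rw [ENNReal.ofReal_sub _ hd, ENNReal.ofReal_one, tsub_le_iff_left, ← h5]
    gcongr
  · exfalso
    have hd' : d < 0 := by
      by_contra hc
      exact hd (mul_nonneg (by positivity) (not_lt.mp hc))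
    have h6 := (he fun _ => false).trans (PMF.coe_le_one _ _)
    rw [ENNReal.ofReal_le_one] at h6
    linarith

end Vale.Agent.P321A
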